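import Vale.Agent.P227.M.Defs

/-! # P227/M/Mom/Bridge : from `pd`, `hess`, `qf` to gradients and Hessians as linear maps, and back -/

open MeasureTheory
open scoped Topology InnerProductSpace

namespace Vale.Agent.P227.M

variable {n : ℕ}

lemma inner_ei (v : E n) (i : Fin n) : inner ℝ v (ei i) = v i := by
  rw [ei, EuclideanSpace.inner_single_right]; simp

lemma inner_ei' (v : E n) (i : Fin n) : inner ℝ (ei i) v = v i := by
  rw [real_inner_comm, inner_ei]

lemma pd_of_hasGradientAt {f : E n → ℝ} {g : E n} {x : E n} (h : HasGradientAt f g x) (i : Fin n) :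
    pd i f x = g i := by
  have h1 : fderiv ℝ f x = (InnerProductSpace.toDual ℝ (E n)) g := h.hasFDerivAt.fderiv
  rw [pd, h1, InnerProductSpace.toDual_apply_apply, inner_ei]

lemma hess_of {f : E n → ℝ} {g : E n → E n} {T : E n → (E n →L[ℝ] E n)}
    (hg : ∀ x, HasGradientAt f (g x) x) (hT : ∀ x, HasFDerivAt g (T x) x) (x : E n) (i j : Fin n) :
    hess f x i j = (T x (ei i)) j := by
  have h0 : pd j f = fun y => (g y) j := by
    funext y; exact pd_of_hasGradientAt (hg y) j
  have h1 : HasFDerivAt (fun y => (g y) j) ((EuclideanSpace.proj j : E n →L[ℝ] ℝ).comp (T x)) x :=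
    (EuclideanSpace.proj j : E n →L[ℝ] ℝ).hasFDerivAt.comp x (hT x)
  rw [hess, h0, pd, h1.fderiv]
  simp

lemma br_sum_smul_ei (v : E n) : ∑ i, v i • (ei i : E n) = v := by
  ext j
  simp [ei, Finset.sum_apply, Pi.single_apply]

lemma qf_of {f : E n → ℝ} {g : E n → E n} {T : E n → (E n →L[ℝ] E n)}
    (hg : ∀ x, HasGradientAt f (g x) x) (hT : ∀ x, HasFDerivAt g (T x) x) (x v : E n) :
    qf (hess f x) v = inner ℝ (T x v) v := by
  have h1 : T x v = ∑ i, v i • T x (ei i) := by
    conv_lhs => rw [← br_sum_smul_ei v]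
    rw [map_sum]; simp
  rw [h1, sum_inner, qf]
  refine Finset.sum_congr rfl fun i _ => ?_
  rw [real_inner_smul_left]
  have h2 : inner ℝ (T x (ei i)) v = ∑ j, (T x (ei i)) j * v j := by
    rw [PiLp.inner_apply]; simp [mul_comm]
  rw [h2, Finset.mul_sum]
  refine Finset.sum_congr rfl fun j _ => ?_
  rw [hess_of hg hT]; ring

lemma det_of {f : E n → ℝ} {g : E n → E n} {T : E n → (E n →L[ℝ] E n)}
    (hg : ∀ x, HasGradientAt f (g x) x) (hT : ∀ x, HasFDerivAt g (T x) x) (x : E n) :
    (hess f x).det = (T x).det := by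
  have h1 : LinearMap.toMatrix (EuclideanSpace.basisFun (Fin n) ℝ).toBasis
      (EuclideanSpace.basisFun (Fin n) ℝ).toBasis (T x : E n →ₗ[ℝ] E n) = (hess f x).transpose := by
    ext i j
    rw [LinearMap.toMatrix_apply, Matrix.transpose_apply, hess_of hg hT]
    simp [ei]
  rw [ContinuousLinearMap.det, ← LinearMap.det_toMatrix (EuclideanSpace.basisFun (Fin n) ℝ).toBasis, h1,
    Matrix.det_transpose]

/-- gradient of a smooth function -/
lemma hasGradientAt_of_contDiff {f : E n → ℝ} {k : WithTop ℕ∞} (hk : k ≠ 0) (hf : ContDiff ℝ k f) (x : E n) :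
    HasGradientAt f (gradient f x) x :=
  ((hf.differentiable hk) x).hasGradientAt

lemma contDiff_gradient {f : E n → ℝ} {m k : WithTop ℕ∞} (hmk : m + 1 ≤ k) (hf : ContDiff ℝ k f) :
    ContDiff ℝ m (gradient f) := by
  have h1 : ContDiff ℝ m (fderiv ℝ f) := hf.fderiv_right hmk
  have h2 : gradient f = fun x => (InnerProductSpace.toDual ℝ (E n)).symm (fderiv ℝ f x) := rfl
  rw [h2]
  exact (InnerProductSpace.toDual ℝ (E n)).symm.toContinuousLinearEquiv.contDiff.comp h1

lemma contDiff_fderiv_gradient {f : E n → ℝ} {m k : WithTop ℕ∞} (hmk : m + 2 ≤ k) (hf : ContDiff ℝ k f) :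
    ContDiff ℝ m (fderiv ℝ (gradient f)) := by
  have h1 : ContDiff ℝ (m + 1) (gradient f) :=
    contDiff_gradient (by rw [add_assoc, one_add_one_eq_two]; exact hmk) hf
  exact h1.fderiv_right le_rfl

lemma hasFDerivAt_gradient {f : E n → ℝ} (hf : ContDiff ℝ 2 f) (x : E n) :
    HasFDerivAt (gradient f) (fderiv ℝ (gradient f) x) x := by
  have h1 : ContDiff ℝ 1 (gradient f) := contDiff_gradient (by norm_num) hf
  exact ((h1.differentiable (by norm_num)) x).hasFDerivAt

/-- the Hessian as a linear map -/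
noncomputable def hT (f : E n → ℝ) (x : E n) : E n →L[ℝ] E n := fderiv ℝ (gradient f) x

lemma hess_hT {f : E n → ℝ} (hf : ContDiff ℝ 2 f) (x : E n) (i j : Fin n) :
    hess f x i j = (hT f x (ei i)) j :=
  hess_of (fun x => hasGradientAt_of_contDiff (by norm_num) hf x) (fun x => hasFDerivAt_gradient hf x) x i j

lemma qf_hT {f : E n → ℝ} (hf : ContDiff ℝ 2 f) (x v : E n) :
    qf (hess f x) v = inner ℝ (hT f x v) v :=
  qf_of (fun x => hasGradientAt_of_contDiff (by norm_num) hf x) (fun x => hasFDerivAt_gradient hf x) x v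

lemma det_hT {f : E n → ℝ} (hf : ContDiff ℝ 2 f) (x : E n) :
    (hess f x).det = (hT f x).det :=
  det_of (fun x => hasGradientAt_of_contDiff (by norm_num) hf x) (fun x => hasFDerivAt_gradient hf x) x

lemma inner_gradient {f : E n → ℝ} (x v : E n) : inner ℝ (gradient f x) v = fderiv ℝ f x v := by
  have : gradient f x = (InnerProductSpace.toDual ℝ (E n)).symm (fderiv ℝ f x) := rfl
  rw [this, InnerProductSpace.toDual_symm_apply]

/-- symmetry of the Hessian -/
lemma hT_symm {f : E n → ℝ} (hf : ContDiff ℝ 2 f) (x v w : E n) :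
    inner ℝ (hT f x v) w = inner ℝ (hT f x w) v := by
  have key : ∀ v w : E n, inner ℝ (hT f x v) w = fderiv ℝ (fderiv ℝ f) x v w := by
    intro v w
    have h1 : HasFDerivAt (fun y => inner ℝ (gradient f y) w)
        (((innerSL ℝ).flip w).comp (hT f x)) x :=
      ((innerSL ℝ).flip w).hasFDerivAt.comp x (hasFDerivAt_gradient hf x)
    have h2 : (fun y => inner ℝ (gradient f y) w) = fun y => fderiv ℝ f y w := by
      funext y; exact inner_gradient y w
    have h3 : HasFDerivAt (fderiv ℝ f) (fderiv ℝ (fderiv ℝ f) x) x :=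
      (((hf.fderiv_right (m := 1) (by norm_num)).differentiable (by norm_num)) x).hasFDerivAt
    have h4 : HasFDerivAt (fun y => fderiv ℝ f y w)
        ((ContinuousLinearMap.apply ℝ ℝ w).comp (fderiv ℝ (fderiv ℝ f) x)) x :=
      (ContinuousLinearMap.apply ℝ ℝ w).hasFDerivAt.comp x h3
    rw [h2] at h1
    have h5 := h1.unique h4
    exact DFunLike.congr_fun h5 v
  rw [key, key]
  have hs : IsSymmSndFDerivAt ℝ f x := hf.contDiffAt.isSymmSndFDerivAt (by simp)
  exact hs v w

/-- derivative along a line -/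
lemma line_deriv1 {f : E n → ℝ} (hf : ContDiff ℝ 2 f) (x v : E n) (t : ℝ) :
    HasDerivAt (fun t : ℝ => f (x + t • v)) (inner ℝ (gradient f (x + t • v)) v) t := by
  have h0 : HasDerivAt (fun t : ℝ => x + t • v) v t := by
    simpa using ((hasDerivAt_id t).smul_const v).const_add x
  exact (hasGradientAt_of_contDiff (by norm_num) hf (x + t • v)).hasFDerivAt.comp_hasDerivAt t h0

lemma line_deriv2 {f : E n → ℝ} (hf : ContDiff ℝ 2 f) (x v w : E n) (t : ℝ) :
    HasDerivAt (fun t : ℝ => inner ℝ (gradient f (x + t • v)) w) (inner ℝ (hT f (x + t • v) v) w) t := by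
  have h0 : HasDerivAt (fun t : ℝ => x + t • v) v t := by
    simpa using ((hasDerivAt_id t).smul_const v).const_add x
  have h1 : HasDerivAt (fun t : ℝ => gradient f (x + t • v)) (hT f (x + t • v) v) t := by
    have := (hasFDerivAt_gradient hf (x + t • v)).comp_hasDerivAt t h0
    exact this
  simpa using h1.inner ℝ (hasDerivAt_const t w)

lemma line_deriv3 {f : E n → ℝ} (hf : ContDiff ℝ 3 f) (x v w z : E n) (t : ℝ) :
    HasDerivAt (fun t : ℝ => inner ℝ (hT f (x + t • v) w) z)
      (inner ℝ (fderiv ℝ (hT f) (x + t • v) v w) z) t := by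
  have h0 : HasDerivAt (fun t : ℝ => x + t • v) v t := by
    simpa using ((hasDerivAt_id t).smul_const v).const_add x
  have h2 : ContDiff ℝ 1 (hT f) := contDiff_fderiv_gradient (by norm_num) hf
  have h1 : HasDerivAt (fun t : ℝ => hT f (x + t • v)) (fderiv ℝ (hT f) (x + t • v) v) t := by
    have := ((h2.differentiable (by norm_num)) (x + t • v)).hasFDerivAt.comp_hasDerivAt t h0
    exact this
  have h3 : HasDerivAt (fun t : ℝ => hT f (x + t • v) w) (fderiv ℝ (hT f) (x + t • v) v w) t := by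
    simpa using h1.clm_apply (hasDerivAt_const t w)
  simpa using h3.inner ℝ (hasDerivAt_const t z)

lemma iter2_line {f : E n → ℝ} (hf : ContDiff ℝ 2 f) (x v : E n) :
    iteratedDeriv 2 (fun t : ℝ => f (x + t • v)) = fun t => inner ℝ (hT f (x + t • v) v) v := by
  have h1 : deriv (fun t : ℝ => f (x + t • v)) = fun t => inner ℝ (gradient f (x + t • v)) v := by
    funext t; exact (line_deriv1 hf x v t).deriv
  rw [iteratedDeriv_succ, iteratedDeriv_one, h1]
  funext t; exact (line_deriv2 hf x v v t).deriv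

lemma iter3_line {f : E n → ℝ} (hf : ContDiff ℝ 3 f) (x v : E n) :
    iteratedDeriv 3 (fun t : ℝ => f (x + t • v)) =
      fun t => inner ℝ (fderiv ℝ (hT f) (x + t • v) v v) v := by
  rw [iteratedDeriv_succ, iter2_line (hf.of_le (by norm_num))]
  funext t; exact (line_deriv3 hf x v v v t).deriv

lemma selfConc_iff {f : E n → ℝ} (hf : ContDiff ℝ 3 f) (κ : ℝ) :
    SelfConc κ f ↔ ∀ x v : E n, |inner ℝ (fderiv ℝ (hT f) x v v) v| ≤
      2 * κ * (inner ℝ (hT f x v) v) ^ ((3 : ℝ) / 2) := by
  unfold SelfConc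
  refine forall_congr' fun x => forall_congr' fun v => ?_
  rw [iter3_line hf, iter2_line (hf.of_le (by norm_num))]
  simp

/-- symmetry in the last two slots, third derivative -/
lemma d3_symm_last {f : E n → ℝ} (hf : ContDiff ℝ 3 f) (x u v w : E n) :
    inner ℝ (fderiv ℝ (hT f) x u v) w = inner ℝ (fderiv ℝ (hT f) x u w) v := by
  have h1 := (line_deriv3 hf x u v w 0)
  have h2 := (line_deriv3 hf x u w v 0)
  have h3 : (fun t : ℝ => inner ℝ (hT f (x + t • u) v) w) = fun t : ℝ => inner ℝ (hT f (x + t • u) w) v := by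
    funext t; exact hT_symm (hf.of_le (by norm_num)) _ _ _
  rw [h3] at h1
  simpa using h1.unique h2

/-- symmetry in the first two slots, third derivative -/
lemma d3_symm_first {f : E n → ℝ} (hf : ContDiff ℝ 3 f) (x u v : E n) :
    fderiv ℝ (hT f) x u v = fderiv ℝ (hT f) x v u := by
  have h1 : ContDiff ℝ 2 (gradient f) := contDiff_gradient (by norm_num) hf
  have hs : IsSymmSndFDerivAt ℝ (gradient f) x := h1.contDiffAt.isSymmSndFDerivAt (by simp)
  exact hs u v

end Vale.Agent.P227.M
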