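import Vale.Agent.P227.M.Stmts
import Vale.Agent.P227.M.Mom.Bridge

/-! # P227/M/Mom/Out : interface between level `k` (block LK) and the limit `k → ∞` (blocks LIM, DUAL) -/

open MeasureTheory
open scoped Topology

namespace Vale.Agent.P227.M

/-- output of the level-`k` blocks : approximate moment maps with uniform `C^{2,1}` bounds -/
def LKOut {n : ℕ} (V : E n → ℝ) (c C : ℝ) : Prop :=
  ∃ M : ℝ, ∀ ε > 0, ∃ φ : E n → ℝ, ContDiff ℝ (⊤ : ℕ∞) φ ∧ (∀ x, φ (-x) = φ x) ∧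
    (∀ x v, (1 - ε) * C⁻¹ * ‖v‖ ^ 2 ≤ qf (hess φ x) v) ∧
    (∀ x v, qf (hess φ x) v ≤ c⁻¹ * ‖v‖ ^ 2) ∧
    (∀ x y, ‖hT φ x - hT φ y‖ ≤ M * ‖x - y‖) ∧
    (∫ y, Real.exp (-φ y)) = 1 ∧
    ∀ F : E n → ℝ, (∀ x, |F x| ≤ 1) → LipschitzWith 1 F →
      |(∫ y, F (gradient φ y) * Real.exp (-φ y)) - ∫ x, F x * Real.exp (-V x)| ≤ ε

/-- level `k` (SC + invariance + descent + law) -/
def StmtLK : Prop := ∀ (n : ℕ) (V : E n → ℝ) (c C : ℝ), Nice V c C →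
  (∫ x, Real.exp (-V x)) = 1 → LKOut V c C

/-- limit `k → ∞` + Legendre -/
def StmtLim : Prop := ∀ (n : ℕ) (V : E n → ℝ) (c C : ℝ), Nice V c C →
  (∫ x, Real.exp (-V x)) = 1 → LKOut V c C → ∃ (ψ : E n → ℝ) (M : ℝ), MM ψ V c C M

end Vale.Agent.P227.M
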