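import Vale.Agent.P227.M.Mom.Out
import Vale.Agent.P227.M.LK.SCInv
import Vale.Agent.P227.M.LK.Desc
import Vale.Agent.P227.M.LK.TV
import Vale.Agent.P227.M.SC.Pol
import Vale.Agent.P227.M.Bas
import Vale.Agent.P227.M.LK.LawK541
import Vale.Agent.P227.M.LK.RegLL570

/-! # P227/M/Mom/LK : assembly of the level-`k` block, `StmtSC → StmtLK` -/

open MeasureTheory
open scoped Topology

namespace Vale.Agent.P227.M.Mom

open Vale.Agent.P227.M Vale.Agent.P227.M.LK

variable {n : ℕ}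

lemma inner_hT {f : E n → ℝ} (hf : ContDiff ℝ 2 f) (x v w : E n) :
    inner ℝ (hT f x v) w = fderiv ℝ (fderiv ℝ f) x v w := by
  have h1 : HasFDerivAt (fun y => inner ℝ (gradient f y) w)
      (((innerSL ℝ).flip w).comp (hT f x)) x :=
    ((innerSL ℝ).flip w).hasFDerivAt.comp x (hasFDerivAt_gradient hf x)
  have h2 : (fun y => inner ℝ (gradient f y) w) = fun y => fderiv ℝ f y w := by
    funext y; exact inner_gradient y w
  have h3 : HasFDerivAt (fderiv ℝ f) (fderiv ℝ (fderiv ℝ f) x) x :=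
    (((hf.fderiv_right (m := 1) (by norm_num)).differentiable (by norm_num)) x).hasFDerivAt
  have h4 : HasFDerivAt (fun y => fderiv ℝ f y w)
      ((ContinuousLinearMap.apply ℝ ℝ w).comp (fderiv ℝ (fderiv ℝ f) x)) x :=
    (ContinuousLinearMap.apply ℝ ℝ w).hasFDerivAt.comp x h3
  rw [h2] at h1
  exact DFunLike.congr_fun (h1.unique h4) v

lemma norm_hT_sub_le {f : E n → ℝ} (hf : ContDiff ℝ 2 f) (x y : E n) :
    ‖hT f x - hT f y‖ ≤ ‖fderiv ℝ (fderiv ℝ f) x - fderiv ℝ (fderiv ℝ f) y‖ := by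
  refine ContinuousLinearMap.opNorm_le_bound _ (by positivity) fun v => ?_
  set w := (hT f x - hT f y) v with hw
  rcases eq_or_lt_of_le (norm_nonneg w) with h0 | h0
  · rw [← h0]; positivity
  · have h1 : ‖w‖ * ‖w‖ = (fderiv ℝ (fderiv ℝ f) x - fderiv ℝ (fderiv ℝ f) y) v w := by
      rw [← real_inner_self_eq_norm_mul_norm]
      conv_lhs => rw [hw]
      have e1 : (hT f x - hT f y) v = hT f x v - hT f y v := rfl
      have e2 : (fderiv ℝ (fderiv ℝ f) x - fderiv ℝ (fderiv ℝ f) y) v w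
          = fderiv ℝ (fderiv ℝ f) x v w - fderiv ℝ (fderiv ℝ f) y v w := rfl
      rw [e2, ← inner_hT hf, ← inner_hT hf, ← inner_sub_left, ← e1, ← hw]
    have h2 := ((fderiv ℝ (fderiv ℝ f) x - fderiv ℝ (fderiv ℝ f) y) v).le_opNorm w
    have h3 := (fderiv ℝ (fderiv ℝ f) x - fderiv ℝ (fderiv ℝ f) y).le_opNorm v
    rw [Real.norm_eq_abs] at h2
    have h4 := (le_abs_self _).trans h2
    rw [← h1] at h4
    exact (le_of_mul_le_mul_right h4 h0).trans h3

lemma fderiv_zero_of_even {f : E n → ℝ} (hf : Differentiable ℝ f) (he : ∀ x, f (-x) = f x) :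
    fderiv ℝ f 0 = 0 := by
  have h1 : HasFDerivAt f (fderiv ℝ f 0) 0 := (hf 0).hasFDerivAt
  have h2 : HasFDerivAt (fun x : E n => -x) (-ContinuousLinearMap.id ℝ (E n)) 0 :=
    (hasFDerivAt_id (0 : E n)).neg
  have h1' : HasFDerivAt f (fderiv ℝ f 0) ((fun x : E n => -x) 0) := by simpa using h1
  have h3 := h1'.comp (0 : E n) h2
  have h4 : f ∘ (fun x : E n => -x) = f := by funext x; exact he x
  rw [h4] at h3
  have h5 := h1.unique h3
  have h6 : ∀ v, fderiv ℝ f 0 v = 0 := by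
    intro v
    have := DFunLike.congr_fun h5 v
    simp at this
    linarith
  ext v; simp [h6 v]

lemma nice_lower {f : E n → ℝ} {a b : ℝ} (h : Nice f a b) (x : E n) : f 0 + a / 2 * ‖x‖ ^ 2 ≤ f x := by
  have h1 := lower_quad h.C2 h.lower x
  rw [fderiv_zero_of_even (h.C2.differentiable (by norm_num)) h.even] at h1
  simpa using h1

lemma nice_upper {f : E n → ℝ} {a b : ℝ} (h : Nice f a b) (x : E n) : f x ≤ f 0 + b / 2 * ‖x‖ ^ 2 := by
  have hn : ContDiff ℝ 2 (fun x => -f x) := h.C2.neg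
  have hpd : ∀ (g : E n → ℝ) (i : Fin n), pd i (fun x => -g x) = fun x => -pd i g x := by
    intro g i; funext x
    have : (fun x => -g x) = -g := rfl
    rw [pd, pd, this, fderiv_neg]; simp
  have hh : ∀ x v, qf (hess (fun x => -f x) x) v = -qf (hess f x) v := by
    intro x v
    simp only [qf, ← Finset.sum_neg_distrib]
    refine Finset.sum_congr rfl fun i _ => Finset.sum_congr rfl fun j _ => ?_
    rw [hess, hpd f j, hpd (pd j f) i, hess]; ring
  have h1 := lower_quad hn (c := -b) (fun x v => by rw [hh]; have := h.upper x v; linarith) x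
  rw [fderiv_zero_of_even (hn.differentiable (by norm_num)) (fun x => by rw [h.even])] at h1
  have h2 : (0 : E n →L[ℝ] ℝ) x = 0 := rfl
  rw [h2] at h1
  linarith

lemma phi_eq (k : ℝ) (c : E n → ℝ) : LK.phi k c = phiK k c := by
  funext y
  simp only [LK.phi, phiK, logLap, inner_smul_right]

lemma Q_eq (k : ℝ) (c : E n → ℝ) : LK.Q k (LK.phi k c) = QK k c := by
  funext x
  rw [phi_eq]
  simp only [LK.Q, QK, logLap, inner_smul_right, real_inner_comm]

/-- the class of level `k`, without normalisation -/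
def Pk (k c0 C0 m : ℝ) (c : E n → ℝ) : Prop :=
  Nice c (c0 * (k + 1) / k) (C0 * (k + 1) / k) ∧ SelfConc m c

lemma Pk_T (hSC : StmtSC) (hLL : RegLL) {k c0 C0 m : ℝ} {c : E n → ℝ} {V : E n → ℝ} {MV : ℝ} (hV : Nice V c0 C0)
    (hC0 : 0 < C0) (hMV : 0 ≤ MV) (hVs : SelfConc MV V) (hm : 2 / 3 * MV * √(C0 / c0) ≤ m)
    (hk : 0 < k) (hmk : m ^ 2 ≤ k) (hc : Pk k c0 C0 m c) : Pk k c0 C0 m (LK.T V k c) := by
  have hc0 : 0 < c0 := hV.c_pos
  have hm0 : 0 ≤ m := le_trans (by positivity) hm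
  have hsk : 0 < √k := Real.sqrt_pos.2 hk
  have hQ := nice_QK hLL hk hc0 hC0 hc.1
  have hQs := sc_QK hSC hLL hk hc0 hC0 hm0 hmk hc.1 hc.2
  have hS : Reg (fun x => V x + QK k c x) (c0 + k * c0) (C0 + k * C0) := Reg.add hV.toReg hQ.toReg
  have hSs : SelfConc (m / √k) (fun x => V x + QK k c x) := by
    rw [LK.selfConc_iff hS.smooth (qf_nonneg_of_reg hS)]
    rw [LK.selfConc_iff hV.smooth (qf_nonneg_of_reg hV.toReg)] at hVs
    rw [LK.selfConc_iff hQ.smooth (qf_nonneg_of_reg hQ.toReg)] at hQs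
    intro x v
    rw [iteratedFDeriv_add' hV.smooth hQ.smooth, qf_add hV.smooth hQ.smooth]
    exact sum_ineq hk hm0 hMV hc0 hC0.le hm (N := ‖v‖ ^ 2) (by positivity)
      (qf_nonneg_of_reg hV.toReg x v) (hV.upper x v) (hQ.lower x v) (hVs x v) (hQs x v)
  have hD := Reg.scale hS (α := 1 / k) (β := 1) (by positivity) one_ne_zero
  have hDs := SelfConc.scale hS hSs (α := 1 / k) (β := 1) (by positivity) one_ne_zero
  simp only [one_smul, one_pow, mul_one] at hD hDs
  have hTeq : LK.T V k c = fun x => 1 / k * (V x + QK k c x) := by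
    funext x; unfold LK.T; rw [Q_eq]; ring
  have h4 : m / √k / √(1 / k) = m := by
    rw [Real.sqrt_div zero_le_one, Real.sqrt_one]
    field_simp
  rw [h4] at hDs
  refine ⟨⟨?_, ?_⟩, ?_⟩
  · rw [hTeq]
    refine Reg.congr_const hD ?_ ?_ <;> field_simp <;> ring
  · intro x
    rw [hTeq]
    simp only [hV.even x, hQ.even x]
  · rw [hTeq]
    exact hDs

lemma Pk_good (hLL : RegLL) {k c0 C0 m : ℝ} (hk : 0 < k) (hc0 : 0 < c0) (hC0 : 0 < C0) {c : E n → ℝ}
    (hc : Pk k c0 C0 m c) :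
    LK.Good k (c0 * (k + 1) / k) (C0 * (k + 1) / k) (k / ((k + 1) * C0)) c where
  meas := hc.1.smooth.continuous.measurable
  lo := nice_lower hc.1
  hi := nice_upper hc.1
  plo y := by
    rw [phi_eq]
    exact nice_lower (nice_phiK hLL hk hc0 hC0 hc.1) y

/-- approximate moment map at level `k` -/
theorem exists_level (hSC : StmtSC) (hLL : RegLL) {V : E n → ℝ} {c0 C0 MV m k s : ℝ}
    (hs : 0 < s) (hs2 : n / ((k + 1) * c0) ≤ s ^ 2)
    (hV : Nice V c0 C0) (hC0 : 0 < C0) (hV1 : ∫ x, Real.exp (-V x) = 1) (hMV : 0 ≤ MV) (hVs : SelfConc MV V)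
    (hm : 2 / 3 * MV * √(C0 / c0) ≤ m) (hm' : MV ≤ m) (hk : 0 < k) (hmk : m ^ 2 ≤ k) {η : ℝ} (hη : 0 < η) :
    ∃ c : E n → ℝ, Nice (phiK k c) (k / ((k + 1) * C0)) (k / ((k + 1) * c0)) ∧ SelfConc m (phiK k c) ∧
      ∀ F : E n → ℝ, (∀ x, |F x| ≤ 1) → LipschitzWith 1 F →
        |(∫ y, F (gradient (phiK k c) y) * Real.exp (-phiK k c y)) / (∫ y, Real.exp (-phiK k c y))
          - ∫ x, F x * Real.exp (-V x)| ≤ s + 2 * η := by
  have hc0 : 0 < c0 := hV.c_pos
  have hm0 : 0 ≤ m := hMV.trans hm'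
  have ha : 0 < c0 * (k + 1) / k := by positivity
  have hb : 0 < C0 * (k + 1) / k := by positivity
  have ha' : 0 < k / ((k + 1) * C0) := by positivity
  have hgn : Gr (fun x : E n => ‖x‖ ^ 2) := Gr.norm.pow 2
  -- the start
  have hstart : Pk k c0 C0 m (fun x => (k + 1) / k * V x) := by
    have h1 := Nice.scale hV (α := (k + 1) / k) (β := 1) (by positivity) one_ne_zero
    have h2 := SelfConc.scale hV.toReg hVs (α := (k + 1) / k) (β := 1) (by positivity) one_ne_zero
    simp only [one_smul, one_pow, mul_one] at h1 h2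
    refine ⟨Nice.congr_const h1 (by ring) (by ring), SelfConc.mono h1.toReg h2 (le_trans ?_ hm')⟩
    rw [div_le_iff₀ (Real.sqrt_pos.2 (by positivity))]
    refine le_mul_of_one_le_right hMV ?_
    rw [Real.one_le_sqrt, le_div_iff₀ hk]
    linarith
  obtain ⟨c, hPc, hKL⟩ := LK.exists_KL_le hk ha hb ha' (Pk k c0 C0 m) _ hstart
    (fun c hc => Pk_T hSC hLL hV hC0 hMV hVs hm hk hmk hc) (fun c hc => Pk_good hLL hk hc0 hC0 hc)
    hV.toReg.integrable_exp hV1 (hV.toReg.integrable_gr hV.toReg.gr) (hV.toReg.integrable_gr hgn)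
    (ε := η ^ 2) (by positivity)
  have hG := Pk_good hLL hk hc0 hC0 hPc
  have hphi := nice_phiK hLL hk hc0 hC0 hPc.1
  have hQ := nice_QK hLL hk hc0 hC0 hPc.1
  refine ⟨c, hphi, sc_phiK hSC hLL hk hC0 hm0 hmk hPc.1 hPc.2, fun F hF hFL => ?_⟩
  set Zc := ∫ y, Real.exp (-phiK k c y) with hZc
  have hZ0 : 0 < Zc := hphi.toReg.Z_pos
  have hZeq : LK.Z k c = Zc := by rw [LK.Z, phi_eq]
  -- law
  obtain ⟨-, -, -, hlaw⟩ := LK.Law.lawK (k := k) (c := c) (φ := phiK k c) hk hPc.1.smooth.continuous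
    (a₀ := c0 * (k + 1) / k / 2) (A := -c 0) (a₁ := k / ((k + 1) * C0) / 2) (A₁ := -phiK k c 0) (by positivity)
    (fun x => by have := nice_lower hPc.1 x; linarith) (fun y => rfl) hphi.toReg.C2 (by positivity)
    (fun x => by have := nice_lower hphi x; linarith) hphi.upper
  have h1 : |(∫ y, F (gradient (phiK k c) y) * Real.exp (-phiK k c y))
      - ∫ x, F x * Real.exp (-(k * c x - QK k c x))| ≤ s * ∫ y, Real.exp (-phiK k c y) := by
    refine hlaw F hFL hF s hs (le_trans (le_of_eq ?_) hs2)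
    field_simp
  rw [← hZc] at h1
  have hW : ∀ x, Real.exp (-LK.W k c x) = Real.exp (-(k * c x - QK k c x)) / Zc := by
    intro x
    rw [LK.W, Q_eq, hZeq, neg_add, Real.exp_add, Real.exp_neg (Real.log _), Real.exp_log hZ0, div_eq_mul_inv]
  have h2 : ∫ x, F x * Real.exp (-LK.W k c x) = (∫ x, F x * Real.exp (-(k * c x - QK k c x))) / Zc := by
    rw [← integral_div]
    refine integral_congr_ae (Filter.Eventually.of_forall fun x => ?_)
    simp only [hW]
    ring
  have h3 : |(∫ y, F (gradient (phiK k c) y) * Real.exp (-phiK k c y)) / Zc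
      - ∫ x, F x * Real.exp (-LK.W k c x)| ≤ s := by
    rw [h2, ← sub_div, abs_div, abs_of_pos hZ0, div_le_iff₀ hZ0]
    exact h1
  -- entropy
  have hKi : Integrable fun x => (LK.W k c x - V x) * Real.exp (-V x) := by
    refine hV.toReg.integrable_gr ?_
    have : LK.W k c = fun x => k * c x - QK k c x + Real.log (LK.Z k c) := by
      funext x; rw [LK.W, Q_eq]
    rw [this]
    exact (((hPc.1.toReg.gr.const_mul k).sub hQ.toReg.gr).add (Gr.const _)).sub hV.toReg.gr
  have h4 := LK.abs_sub_le_of_KL hη hV.toReg.integrable_exp (hG.integrable_exp_neg_W hk ha ha') hV1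
    (hG.integral_W hk ha ha') hKi hKL hFL.continuous.aestronglyMeasurable zero_le_one hF
  calc _ ≤ |(∫ y, F (gradient (phiK k c) y) * Real.exp (-phiK k c y)) / Zc
          - ∫ x, F x * Real.exp (-LK.W k c x)|
        + |(∫ x, F x * Real.exp (-LK.W k c x)) - ∫ x, F x * Real.exp (-V x)| := abs_sub_le _ _ _
    _ ≤ _ := by linarith


lemma hT_congr_const {φ : E n → ℝ} (r : ℝ) (x : E n) : hT (fun y => φ y + r) x = hT φ x := by
  have h1 : gradient (fun y => φ y + r) = gradient φ := by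
    funext y
    simp only [gradient, fderiv_add_const]
  rw [hT, h1, hT]

lemma hess_congr_const {φ : E n → ℝ} (r : ℝ) (x : E n) : hess (fun y => φ y + r) x = hess φ x := by
  have h1 : ∀ j, pd j (fun y => φ y + r) = pd j φ := by
    intro j; funext y
    simp only [pd, fderiv_add_const]
  funext i j
  rw [hess, h1, hess]

lemma Reg.contDiff3 {φ : E n → ℝ} {a b : ℝ} (h : Reg φ a b) : ContDiff ℝ 3 φ := h.smooth.of_le (by norm_cast)

/-- the bound of the Lipschitz constant of the Hessian -/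
lemma hT_lip {φ : E n → ℝ} {a b m : ℝ} (h : Nice φ a b) (hb : 0 ≤ b) (hm : 0 ≤ m) (hs : SelfConc m φ) (x y : E n) :
    ‖hT φ x - hT φ y‖ ≤ (9 / 2 * (2 * m * (b * √b))) * ‖x - y‖ := by
  have h3 : ContDiff ℝ 3 φ := Reg.contDiff3 h.toReg
  have hq : ∀ x v, iteratedDeriv 2 (fun t : ℝ => φ (x + t • v)) 0 = qf (hess φ x) v :=
    fun x v => iteratedDeriv_two_line h.smooth x v
  have h1 := SC.Pol.hess_lipschitz_of_sc (c := φ) h3 hm hb (fun x v => by rw [hq]; exact h.upper x v)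
    (fun x v => by rw [hq]; exact qf_nonneg_of_reg h.toReg x v) (fun x v => by
      have h2 := hs x v
      have h4 : 0 ≤ iteratedDeriv 2 (fun t : ℝ => φ (x + t • v)) 0 := by
        rw [hq]; exact qf_nonneg_of_reg h.toReg x v
      have h5 := pow_le_pow_left₀ (abs_nonneg _) h2 2
      rw [sq_abs] at h5
      refine h5.trans (le_of_eq ?_)
      rw [mul_pow, mul_pow, ← Real.rpow_natCast (_ ^ ((3 : ℝ) / 2)) 2, ← Real.rpow_mul h4]
      norm_num)
  refine (norm_hT_sub_le h.C2 x y).trans ?_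
  have h6 := h1.dist_le_mul x y
  rw [dist_eq_norm, dist_eq_norm, Real.coe_toNNReal _ (by positivity)] at h6
  exact h6

theorem lkOut_zero {V : E 0 → ℝ} {c C : ℝ} (hV : Nice V c C) (hV1 : ∫ x, Real.exp (-V x) = 1) : LKOut V c C := by
  have hz : ∀ v : E 0, ‖v‖ = 0 := fun v => by rw [Subsingleton.elim v 0, norm_zero]
  refine ⟨0, fun ε hε => ⟨V, hV.smooth, hV.even, fun x v => ?_, fun x v => ?_, fun x y => ?_, hV1, fun F hF hFL => ?_⟩⟩
  · simp [qf, hz]
  · simp [qf, hz]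
  · rw [Subsingleton.elim x y]; simp
  · have : ∀ y, F (gradient V y) = F y := fun y => by rw [Subsingleton.elim (gradient V y) y]
    simp only [this, sub_self, abs_zero]
    exact hε.le

theorem stmtLK_of (hSC : StmtSC) (hLL : RegLL) : StmtLK := by
  intro n V c0 C0 hV hV1
  rcases Nat.eq_zero_or_pos n with rfl | hn
  · exact lkOut_zero hV hV1
  have hc0 : 0 < c0 := hV.c_pos
  have hcC : c0 ≤ C0 := by
    have h1 := hV.lower 0 (ei ⟨0, hn⟩)
    have h2 := hV.upper 0 (ei ⟨0, hn⟩)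
    have h3 : ‖(ei ⟨0, hn⟩ : E n)‖ = 1 := by simp [ei]
    rw [h3] at h1 h2
    linarith
  have hC0 : 0 < C0 := hc0.trans_le hcC
  obtain ⟨MV, hMV, hVs⟩ := Reg.exists_selfConc hV.toReg
  set m := max MV (2 / 3 * MV * √(C0 / c0)) with hmdef
  have hm' : MV ≤ m := le_max_left _ _
  have hm : 2 / 3 * MV * √(C0 / c0) ≤ m := le_max_right _ _
  have hm0 : 0 ≤ m := hMV.trans hm'
  refine ⟨9 / 2 * (2 * m * (c0⁻¹ * √c0⁻¹)), fun ε hε => ?_⟩
  -- choice of k
  obtain ⟨k, hk1, hk2, hk3, hk4⟩ : ∃ k : ℝ, 0 < k ∧ m ^ 2 ≤ k ∧ 1 / ε ≤ k ∧ n / (c0 * (ε / 2) ^ 2) ≤ k := by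
    refine ⟨1 + m ^ 2 + 1 / ε + n / (c0 * (ε / 2) ^ 2), by positivity, ?_, ?_, ?_⟩
    · have : 0 < 1 / ε := by positivity
      have h2 : 0 ≤ n / (c0 * (ε / 2) ^ 2) := by positivity
      linarith
    · have h1 : 0 ≤ m ^ 2 := by positivity
      have h2 : 0 ≤ n / (c0 * (ε / 2) ^ 2) := by positivity
      linarith
    · have : 0 < 1 / ε := by positivity
      have h1 : 0 ≤ m ^ 2 := by positivity
      linarith
  have hsk : n / ((k + 1) * c0) ≤ (ε / 2) ^ 2 := by
    rw [div_le_iff₀ (by positivity)]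
    rw [div_le_iff₀ (by positivity)] at hk4
    have h6 : 0 ≤ (ε / 2) ^ 2 * c0 := by positivity
    nlinarith
  obtain ⟨c, hN, hS, hF⟩ := exists_level hSC hLL (s := ε / 2) (by positivity) hsk hV hC0 hV1 hMV hVs hm hm' hk1 hk2
    (η := ε / 4) (by positivity)
  have hZ0 : 0 < ∫ y, Real.exp (-phiK k c y) := hN.toReg.Z_pos
  set Zc := ∫ y, Real.exp (-phiK k c y) with hZc
  have hexp : ∀ y, Real.exp (-(phiK k c y + Real.log Zc)) = Real.exp (-phiK k c y) / Zc := by
    intro y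
    rw [neg_add, Real.exp_add, Real.exp_neg (Real.log _), Real.exp_log hZ0, div_eq_mul_inv]
  have hgr : gradient (fun y => phiK k c y + Real.log Zc) = gradient (phiK k c) := by
    funext y
    simp only [gradient, fderiv_add_const]
  have hlow : (1 - ε) * C0⁻¹ ≤ k / ((k + 1) * C0) := by
    rw [le_div_iff₀ (by positivity), ← sub_nonneg]
    have h1 : 1 ≤ k * ε := by rwa [div_le_iff₀ hε] at hk3
    have h2 : k - (1 - ε) * C0⁻¹ * ((k + 1) * C0) = k * ε - 1 + ε := by field_simp; ring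
    rw [h2]; linarith
  have hup : k / ((k + 1) * c0) ≤ c0⁻¹ := by
    rw [div_le_iff₀ (by positivity)]
    have h2 : c0⁻¹ * ((k + 1) * c0) = k + 1 := by field_simp
    rw [h2]; linarith
  refine ⟨fun y => phiK k c y + Real.log Zc, hN.smooth.add contDiff_const, fun x => by simp only [hN.even], fun x v => ?_,
    fun x v => ?_, fun x y => ?_, ?_, fun F h1 h2 => ?_⟩
  · rw [hess_congr_const]
    exact (mul_le_mul_of_nonneg_right hlow (by positivity)).trans (hN.lower x v)
  · rw [hess_congr_const]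
    exact (hN.upper x v).trans (mul_le_mul_of_nonneg_right hup (by positivity))
  · rw [hT_congr_const, hT_congr_const]
    refine (hT_lip hN (by positivity) hm0 hS x y).trans (mul_le_mul_of_nonneg_right ?_ (norm_nonneg _))
    have h3 : k / ((k + 1) * c0) * √(k / ((k + 1) * c0)) ≤ c0⁻¹ * √c0⁻¹ :=
      mul_le_mul hup (Real.sqrt_le_sqrt hup) (Real.sqrt_nonneg _) (by positivity)
    have h4 := mul_le_mul_of_nonneg_left h3 (by positivity : 0 ≤ 9 / 2 * (2 * m))
    calc _ = 9 / 2 * (2 * m) * (k / ((k + 1) * c0) * √(k / ((k + 1) * c0))) := by ring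
      _ ≤ _ := h4
      _ = _ := by ring
  · simp only [hexp]
    rw [integral_div, ← hZc, div_self hZ0.ne']
  · have h3 := hF F h1 h2
    rw [hgr]
    simp only [hexp]
    have h4 : (∫ y, F (gradient (phiK k c) y) * (Real.exp (-phiK k c y) / Zc))
        = (∫ y, F (gradient (phiK k c) y) * Real.exp (-phiK k c y)) / Zc := by
      rw [← integral_div]
      refine integral_congr_ae (Filter.Eventually.of_forall fun y => ?_)
      simp only
      ring
    rw [h4]
    linarith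

/-- **block LK**: `StmtSC → StmtLK` -/
theorem stmtLK_of_sc (hSC : StmtSC) : StmtLK := stmtLK_of hSC LK.H570.regLL

end Vale.Agent.P227.M.Mom
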