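import Vale.Agent.P227.M.Mom.LK
import Vale.Agent.P227.M.LIM.MMofLK

/-! # P227/M/Mom/Main : the nonlinear half, `StmtSC → StmtMM` -/

namespace Vale.Agent.P227.M.Mom

/-- existence of the `C^{2,1}` moment map potential from the self-concordance block -/
theorem stmtMM_of_sc (hSC : StmtSC) : StmtMM := LIM.stmtMM_of_LK (stmtLK_of_sc hSC)

end Vale.Agent.P227.M.Mom
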